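import Vale.Agent.P128.B3.Weak

/-! P128 B3/Div (TASK): the limit gradient is divergence free. Plan: see the header of
B3/Weak, second part. -/

namespace Vale.Agent.P128

open MeasureTheory Set Metric Filter Topology
open scoped ENNReal NNReal

variable {c : ℝ} {Ω : ℕ → Set ℂ} {ε : ℕ → ℝ} {wk : ℕ → Prop} {u : ℕ → ℂ → ℝ} {K : ℕ → Set ℂ}
  {v : ℂ → ℝ} {L : Set ℂ}

theorem b3div_symm (ψ w : ℂ → ℝ) (z : ℂ) : fderiv ℝ ψ z (gr w z) = fderiv ℝ w z (gr ψ z) := by
  have e : ∀ f : ℂ → ℝ, gr f z = fderiv ℝ f z 1 • (1 : ℂ) + fderiv ℝ f z Complex.I • Complex.I :=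
    fun f => by simp [gr, mul_comm]
  rw [e, e]
  simp only [map_add, map_smul, smul_eq_mul]
  ring

/-- The limit gradient is divergence free in the whole plane. -/
theorem conv0_div (hs : Seq c Ω ε wk u K) (h : Conv0 u K v L) {ψ : ℂ → ℝ}
    (hψ : ContDiff ℝ 1 ψ) (hc : HasCompactSupport ψ) :
    ∫ z in Lᶜ, fderiv ℝ ψ z (gr v z) = 0 := by
  have cf : Continuous (fderiv ℝ ψ) := hψ.continuous_fderiv one_ne_zero
  have sf : HasCompactSupport (fderiv ℝ ψ) := hc.fderiv ℝ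
  have z0 : ∀ z ∉ tsupport ψ, fderiv ℝ ψ z = 0 := fun z hz =>
    Function.notMem_support.1 fun h' => hz (support_fderiv_subset ℝ h')
  have g0 : ∀ z ∉ tsupport ψ, gr ψ z = 0 := fun z hz => by simp [gr, z0 z hz]
  have cg : Continuous (gr ψ) := by
    unfold gr
    fun_prop
  have sg : HasCompactSupport (gr ψ) := HasCompactSupport.intro hc g0
  obtain ⟨R, hR⟩ := hc.isCompact.isBounded.subset_closedBall 0
  have hw := conv0_weak hs h (cg.memLp_of_hasCompactSupport sg) (R := R) fun z hz =>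
    g0 z fun h' => absurd (mem_closedBall_zero_iff.1 (hR h')) (not_le.2 hz)
  have i1 : Integrable fun z => |ψ z| := (hψ.continuous.integrable_of_hasCompactSupport hc).abs
  have i2 : Integrable fun z => ‖fderiv ℝ ψ z‖ := (cf.integrable_of_hasCompactSupport sf).norm
  have i3 : Integrable fun z => ‖fderiv ℝ ψ z‖ ^ 2 :=
    (cf.norm.pow 2).integrable_of_hasCompactSupport
      (HasCompactSupport.intro hc fun z hz => by simp [z0 z hz])
  have i4 : ∀ S, Dir ψ S < ∞ := fun S => by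
    refine (setLIntegral_le_lintegral _ _).trans_lt ?_
    simpa [HasFiniteIntegral, enorm_pow] using i3.2
  obtain ⟨M, hM⟩ := hψ.continuous.bounded_above_of_compact_support hc
  have key : ∀ᶠ n in atTop, |∫ z in (K n)ᶜ, fderiv ℝ (u n) z (gr ψ z)| ≤
      ε n * ((∫ z, |ψ z|) + ∫ z, ‖fderiv ℝ ψ z‖) := by
    filter_upwards [hs.dom R, hs.dom 1] with n h1 h2
    have am := (hs.am n).toAM0
    obtain ⟨a, a0, a1, a2⟩ := am.outer
    have a3 : a ≤ ε n := by simpa using (a1 0 1 one_pos h2).1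
    have e : ∫ z in (K n)ᶜ, fderiv ℝ (u n) z (gr ψ z) =
        ∫ z in Ω n \ K n, fderiv ℝ ψ z (gr (u n) z) := by
      simp only [b3div_symm ψ]
      refine setIntegral_eq_of_subset_of_forall_sdiff_eq_zero am.closed.isOpen_compl.measurableSet
        (fun z hz => hz.2) fun z hz => ?_
      rw [g0 z fun h' => hz.2 ⟨h1 (hR h'), hz.1⟩, map_zero]
    have b := a2 ψ _ hc.isCompact (hR.trans h1) (fun z hz => image_eq_zero_of_notMem_tsupport hz)
      hψ.locallyLipschitz.locallyLipschitzOn ⟨M, hM⟩ (i4 _)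
    have b1 : ∫ z in Ω n \ K n, |ψ z| ≤ ∫ z, |ψ z| :=
      setIntegral_le_integral i1 (Eventually.of_forall fun z => abs_nonneg _)
    have b2 : ∫ z in Ω n \ K n, ‖fderiv ℝ ψ z‖ ≤ ∫ z, ‖fderiv ℝ ψ z‖ :=
      setIntegral_le_integral i2 (Eventually.of_forall fun z => norm_nonneg _)
    have b3 : 0 ≤ ∫ z in Ω n \ K n, |ψ z| := integral_nonneg fun z => abs_nonneg _
    rw [e, mul_add]
    exact b.trans (add_le_add (mul_le_mul a3 b1 b3 am.eps) (mul_le_mul_of_nonneg_left b2 am.eps))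
  have lim := le_of_tendsto_of_tendsto hw.abs
    (hs.eps.mul_const ((∫ z, |ψ z|) + ∫ z, ‖fderiv ℝ ψ z‖)) key
  rw [zero_mul, abs_nonpos_iff] at lim
  simp only [b3div_symm ψ]
  exact lim

end Vale.Agent.P128
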