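import Vale.Agent.P128.C.Prim
import Vale.Agent.P128.C.Fatou

/-! P128 B3/Soft (TASK): elementary properties of `Conv0` and `Conv`.

Plan. Subsequences: `hφ.tendsto_atTop.eventually`, `Tendsto.comp`; for the locally uniform
convergence unfold the definition (or `TendstoLocallyUniformlyOn` via compact sets and
`TendstoUniformlyOn.seq_tendstoUniformlyOn`).
`mem_of_tendsto`: otherwise a closed ball around `z₀` misses `L`, hence eventually `K n`.
`haus`: first part with the compact set `closedBall y R \ thickening η L`; second part with a finite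
cover of the compact set `L ∩ closedBall y R` by balls of radius `η/2` centred on it.
`close`: `haus` with `η * t`.
`conv0_val`: `const Lᶜ` gives locally constant `cn` with `u n - cn n → v` locally uniformly, so
uniformly on `S`; `cn n z = cn n a` on `S` by `LC.const`.
`GM.seq`: constant sequences. -/

namespace Vale.Agent.P128

open MeasureTheory Set Metric Filter Topology
open scoped ENNReal NNReal

variable {c : ℝ} {Ω : ℕ → Set ℂ} {ε : ℕ → ℝ} {wk : ℕ → Prop} {u : ℕ → ℂ → ℝ} {K : ℕ → Set ℂ}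
  {v : ℂ → ℝ} {L : Set ℂ}

theorem Conv0.subseq (h : Conv0 u K v L) {φ : ℕ → ℕ} (hφ : StrictMono φ) :
    Conv0 (u ∘ φ) (K ∘ φ) v L := by
  have ht := hφ.tendsto_atTop
  refine ⟨h.closed, fun z hz η hη => ht.eventually (h.low z hz η hη),
    fun C hC hL => ht.eventually (h.up C hC hL), h.diff, h.holo, ?_⟩
  intro U hU x hx
  obtain ⟨t, h1, h2⟩ := h.grad U hU x hx
  exact ⟨t, h1, ht.eventually h2⟩

theorem Conv.subseq (h : Conv u K v L) {φ : ℕ → ℕ} (hφ : StrictMono φ) :
    Conv (u ∘ φ) (K ∘ φ) v L := by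
  have ht := hφ.tendsto_atTop
  exact ⟨h.toConv0.subseq hφ, fun y r hr => (h.en y r hr).comp ht,
    fun y r η hr hη => ht.eventually (h.lsc y r η hr hη),
    fun y r η hr hη => ht.eventually (h.usc y r η hr hη)⟩

/-- Limits of points of `K n` lie in `L`. -/
theorem Conv0.mem_of_tendsto (h : Conv0 u K v L) {z : ℕ → ℂ} {z₀ : ℂ}
    (hz : ∃ᶠ n in atTop, z n ∈ K n) (hlim : Tendsto z atTop (𝓝 z₀)) : z₀ ∈ L := by
  by_contra h0
  obtain ⟨δ, hδ, hs⟩ := Metric.nhds_basis_closedBall.mem_iff.1 (h.closed.isOpen_compl.mem_nhds h0)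
  have h1 := h.up _ (isCompact_closedBall z₀ δ) (subset_compl_iff_disjoint_right.1 hs)
  obtain ⟨n, hn, h2, h3⟩ :=
    (hz.and_eventually (h1.and (hlim.eventually (closedBall_mem_nhds z₀ hδ)))).exists
  exact disjoint_left.1 h2 h3 hn

/-- Two-sided Hausdorff closeness in balls. -/
theorem Conv0.haus (h : Conv0 u K v L) (y : ℂ) (R : ℝ) {η : ℝ} (hη : 0 < η) :
    ∀ᶠ n in atTop, (∀ z ∈ K n ∩ closedBall y R, ∃ z' ∈ L, dist z z' ≤ η) ∧
      ∀ z ∈ L ∩ closedBall y R, ∃ z' ∈ K n, dist z z' ≤ η := by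
  refine Eventually.and ?_ ?_
  · have hC : IsCompact (closedBall y R \ thickening η L) :=
      (isCompact_closedBall y R).diff isOpen_thickening
    filter_upwards [h.up _ hC
      (disjoint_left.2 fun z hz hL => hz.2 (self_subset_thickening hη L hL))] with n hn z hz
    have h1 : z ∈ thickening η L := by
      by_contra h2
      exact disjoint_left.1 hn ⟨hz.2, h2⟩ hz.1
    obtain ⟨z', h2, h3⟩ := mem_thickening_iff.1 h1
    exact ⟨z', h2, h3.le⟩
  · have hC : IsCompact (L ∩ closedBall y R) := (isCompact_closedBall y R).inter_left h.closed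
    obtain ⟨t, ht, hf, hc⟩ := finite_cover_balls_of_compact hC (half_pos hη)
    have h1 : ∀ᶠ n in atTop, ∀ x ∈ t, (K n ∩ ball x (η / 2)).Nonempty :=
      (eventually_all_finite hf).2 fun x hx => h.low x (ht hx).1 _ (half_pos hη)
    filter_upwards [h1] with n hn z hz
    obtain ⟨x, hx, h2⟩ := mem_iUnion₂.1 (hc hz)
    obtain ⟨z', h3, h4⟩ := hn x hx
    refine ⟨z', h3, ?_⟩
    have h5 := dist_triangle_right z z' x
    linarith [mem_ball.1 h2, mem_ball.1 h4]

theorem Conv0.close (h : Conv0 u K v L) {N : ℕ} {z e : ℂ} (he : ‖e‖ = 1) (hL : L = cone N z e)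
    {η t : ℝ} (hη : 0 < η) (ht : 0 < t) : ∀ᶠ n in atTop, Close N η (K n) z t e := by
  subst hL
  filter_upwards [h.haus z t (mul_pos hη ht)] with n hn
  exact ⟨he, hn.1, hn.2⟩

/-- Differences of values converge inside a component of the complement of `L`. -/
theorem conv0_val (hs : Seq c Ω ε wk u K) (h : Conv0 u K v L) {S : Set ℂ} (hS : IsCompact S)
    (hc : IsPreconnected S) (hL : Disjoint S L) {a : ℂ} (ha : a ∈ S) :
    TendstoUniformlyOn (fun n z => u n z - u n a) (fun z => v z - v a) atTop S := by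
  have hU := h.closed.isOpen_compl
  have hSU : S ⊆ Lᶜ := subset_compl_iff_disjoint_right.2 hL
  obtain ⟨cn, h1, h2⟩ := const Lᶜ hU u v h.diff (fun C hC hCL => by
    filter_upwards [hs.ev_compact hC, h.up C hC (subset_compl_iff_disjoint_right.1 hCL)]
      with n h3 h4 z hz
    exact (hs.am n).diff z ⟨h3 hz, disjoint_left.1 h4 hz⟩) h.grad
  have h3 := (tendstoLocallyUniformlyOn_iff_forall_isCompact hU).1 h2 S hSU hS
  rw [Metric.tendstoUniformlyOn_iff] at h3 ⊢
  intro δ hδ
  filter_upwards [h3 (δ / 2) (half_pos hδ)] with n hn z hz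
  have h4 := hn z hz
  have h5 := hn a ha
  have h6 : cn n z = cn n a := (h1 n).const hc hSU hz ha
  rw [Real.dist_eq, abs_lt] at h4 h5 ⊢
  constructor <;> linarith [h4.1, h4.2, h5.1, h5.2]

/-- A global minimizer as a constant sequence. -/
theorem GM.seq {u : ℂ → ℝ} {K : Set ℂ} (h : GM c u K) :
    Seq c (fun _ => univ) (fun _ => 0) (fun _ => True) (fun _ => u) (fun _ => K) ∧
      Conv (fun _ => u) (fun _ => K) u K := by
  refine ⟨⟨fun _ => h, tendsto_const_nhds, fun R => Eventually.of_forall fun _ => subset_univ _⟩,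
    ⟨h.closed, fun z hz η hη => Eventually.of_forall fun _ => ⟨z, hz, mem_ball_self hη⟩,
      fun C _ hC => Eventually.of_forall fun _ => hC, fun z hz => h.diff z ⟨trivial, hz⟩,
      h.holo.mono fun z hz => ⟨trivial, hz⟩, fun U hU x _ => ⟨univ, univ_mem,
        Eventually.of_forall fun _ _ _ => refl_mem_uniformity hU⟩⟩,
    fun _ _ _ => tendsto_const_nhds, fun _ _ _ _ hη => Eventually.of_forall fun _ => by linarith,
    fun _ _ _ _ hη => Eventually.of_forall fun _ => by linarith⟩

end Vale.Agent.P128
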