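import Vale.Agent.P128.TC.Main
import Vale.Agent.P128.C.Comp0
import Vale.Agent.P128.C.LimB
import Vale.Agent.P128.B3.Soft
import Vale.Agent.P128.B3.Div

/-! P128 block B3: soft compactness. Interface; see notes/P128.md. The frozen statements
`comp0` (C/Comp0), `Conv0.subseq`, `Conv.subseq`, `Conv0.mem_of_tendsto`, `Conv0.haus`,
`Conv0.close`, `conv0_val`, `GM.seq` (B3/Soft), `conv0_weak` (B3/Weak), `conv0_div` (B3/Div) moved
unchanged to the imported files. -/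

namespace Vale.Agent.P128

open MeasureTheory Set Metric Filter Topology
open scoped ENNReal NNReal

variable {c : ℝ} {Ω : ℕ → Set ℂ} {ε : ℕ → ℝ} {wk : ℕ → Prop} {u : ℕ → ℂ → ℝ} {K : ℕ → Set ℂ}
  {v : ℂ → ℝ} {L : Set ℂ}

theorem conv0_len (hs : Seq c Ω ε wk u K) (h : Conv0 u K v L) (y : ℂ) {R : ℝ} (hR : 0 < R) :
    μH[1] (L ∩ closedBall y R) ≤ ENNReal.ofReal (1000 / c * R) ∧ volume L = 0 := by
  refine ⟨?_, lim_vol hs h⟩
  have hc : 0 < c := (hs.am 0).cpos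
  calc μH[1] (L ∩ closedBall y R) ≤ μH[1] (L ∩ ball y (2 * R)) :=
        measure_mono (inter_subset_inter_right _ (closedBall_subset_ball (by linarith)))
    _ ≤ ENNReal.ofReal (32 * (2 * R) / c) := lim_len hs h y (by linarith)
    _ ≤ ENNReal.ofReal (1000 / c * R) := by
        apply ENNReal.ofReal_le_ofReal
        rw [div_mul_eq_mul_div]
        apply div_le_div_of_nonneg_right _ hc.le
        linarith

theorem conv0_fatou (hs : Seq c Ω ε wk u K) (h : Conv0 u K v L) {S : Set ℂ}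
    (hS : MeasurableSet S) :
    Dir v (S \ L) ≤ liminf (fun n => Dir (u n) (S \ K n)) atTop :=
  h.dir_lsc (fun n => (hs.am n).closed) hS

theorem conv0_upper (hs : Seq c Ω ε wk u K) (h : Conv0 u K v L) (y : ℂ) {r : ℝ} (hr : 0 < r) :
    Dir v (closedBall y r \ L) ≤ ENNReal.ofReal (8 * r) ∧
      ∀ η : ℝ, 0 < η → ∀ᶠ n in atTop, D v L y r - η ≤ D (u n) (K n) y r :=
  ⟨lim_dir hs h y hr, fun _ hη => lim_D_lsc hs h y hr hη⟩

/-- Lower semicontinuity of the length. -/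
theorem conv0_lsc (hs : Seq c Ω ε wk u K) (h : Conv0 u K v L) {U : Set ℂ} (hU : IsOpen U) :
    μH[1] (L ∩ U) ≤ liminf (fun n => μH[1] (K n ∩ U)) atTop :=
  len_lsc hs h hU

/-- Every soft limit is a global minimizer and the convergence is full. -/
theorem conv_of_conv0 (hs : Seq c Ω ε wk u K) (h : Conv0 u K v L) :
    GM c v L ∧ Conv u K v L :=
  ⟨⟨lim_am0 hs h, (hs.am 0).cpos, (hs.am 0).cle, fun _ hy _ hr _ => lim_dens hs h hy hr⟩,
    ⟨h, fun y _ hr => lim_D hs h y hr, fun y _ _ hr hη => lim_len_lsc hs h y hr hη,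
      fun y _ _ hr hη => lim_usc hs h y hr hη⟩⟩

theorem comp (hs : Seq c Ω ε wk u K) :
    ∃ φ : ℕ → ℕ, StrictMono φ ∧ ∃ (v : ℂ → ℝ) (L : Set ℂ),
      GM c v L ∧ Conv (u ∘ φ) (K ∘ φ) v L := by
  obtain ⟨φ, hφ, v, L, h⟩ := comp0 hs
  exact ⟨φ, hφ, v, L, conv_of_conv0 (hs.subseq hφ) h⟩

end Vale.Agent.P128
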