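import Vale.Agent.P128.C.Fatou

/-! P128 B3/Weak (TASK): weak convergence of the gradients.

Plan for `conv0_weak`. Let `B = closedBall 0 R'`, `R' = max R 1`; the integrands vanish off `B`.
Pointwise `|fderiv w z (Ψ z)| ≤ ‖fderiv w z‖ ‖Ψ z‖ ≤ β ‖fderiv w z‖^2 + ‖Ψ z‖^2 / β`, so the
integrands are integrable on `B \ K n` (eventually, `AM0.upper`) and on `B \ L` (`lim_dir`);
measurability from `measurable_fderiv` and `hΨ.1` (`ContinuousLinearMap.aestronglyMeasurable_comp₂` or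
`fderiv_eq_dz`). Given `η`, choose `β` with `β * 8 R' ≤ η`, then `κ` with
`∫ ‖Ψ‖^2 on E ≤ β η` for `E = thickening κ (L ∩ closedBall 0 (R'+1))`
(`tendsto_measure_thickening_of_isClosed` for the finite measure `volume.withDensity (‖Ψ‖ₑ^2)`,
`lim_vol`). On the compact set `C = B \ E`, disjoint from `L` and eventually from `K n`, the
gradients converge uniformly and `Ψ` is integrable, so the integrals over `C` converge; the
integrals over `(B ∩ E) \ K n` and `(B ∩ E) \ L` are at most `2 η` each.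
Plan for `conv0_div`. `fderiv ℝ ψ z (gr w z) = fderiv ℝ w z (gr ψ z)` (`fderiv_eq_dz`, `norm_dz`, or
expand on the basis `1, I`); `Ψ = gr ψ` is continuous with compact support. By `conv0_weak` the
integral is the limit of `∫ z in (K n)ᶜ, fderiv ℝ ψ z (gr (u n) z)`, which equals the integral over
`Ω n \ K n` when `tsupport ψ ⊆ Ω n`; `AM0.outer` bounds it by `a n * ∫|ψ| + ε n * ∫‖fderiv ψ‖` with
`a n * 1 ≤ ε n` once `closedBall 0 1 ⊆ Ω n`. -/

namespace Vale.Agent.P128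

open MeasureTheory Set Metric Filter Topology
open scoped ENNReal NNReal

variable {c : ℝ} {Ω : ℕ → Set ℂ} {ε : ℕ → ℝ} {wk : ℕ → Prop} {u : ℕ → ℂ → ℝ} {K : ℕ → Set ℂ}
  {v : ℂ → ℝ} {L : Set ℂ}

theorem weak_meas (w : ℂ → ℝ) {Ψ : ℂ → ℂ} (hΨ : AEStronglyMeasurable Ψ volume) {K : Set ℂ}
    (hK : IsClosed K) :
    AEStronglyMeasurable (Kᶜ.indicator fun z => fderiv ℝ w z (Ψ z)) volume :=
  ((isBoundedBilinearMap_apply (𝕜 := ℝ) (E := ℂ) (F := ℝ)).continuous.comp_aestronglyMeasurable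
    ((measurable_fderiv ℝ w).aestronglyMeasurable.prodMk hΨ)).indicator hK.measurableSet.compl

theorem weak_le (w : ℂ → ℝ) {Ψ : ℂ → ℂ} {K B : Set ℂ} (hK : IsClosed K) (hB : MeasurableSet B)
    (h0 : ∀ z, z ∉ B → Ψ z = 0) {β A : ℝ} (hβ : 0 < β) (hA : Dir w (B \ K) ≤ ENNReal.ofReal A)
    (S : Set ℂ) : (∫⁻ z in S, ‖Kᶜ.indicator (fun z => fderiv ℝ w z (Ψ z)) z‖ₑ) ≤
      ENNReal.ofReal (β * A) + ENNReal.ofReal (1 / β) * ∫⁻ z in S, ‖Ψ z‖ₑ ^ 2 := by
  have hm := hB.diff hK.measurableSet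
  have h3 : ∀ z, ‖Kᶜ.indicator (fun z => fderiv ℝ w z (Ψ z)) z‖ₑ ≤
      (B \ K).indicator (fun z => ENNReal.ofReal β * ‖fderiv ℝ w z‖ₑ ^ 2) z +
        ENNReal.ofReal (1 / β) * ‖Ψ z‖ₑ ^ 2 := fun z => by
    by_cases hz : z ∈ K
    · rw [indicator_of_notMem (not_not.2 hz), enorm_zero]
      exact zero_le
    rw [indicator_of_mem hz]
    by_cases hz' : z ∈ B
    · rw [indicator_of_mem (show z ∈ B \ K from ⟨hz', hz⟩), ← ofReal_norm, ← ofReal_norm,
        ← ofReal_norm, ← ENNReal.ofReal_pow (norm_nonneg _), ← ENNReal.ofReal_pow (norm_nonneg _),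
        ← ENNReal.ofReal_mul hβ.le, ← ENNReal.ofReal_mul (by positivity),
        ← ENNReal.ofReal_add (by positivity) (by positivity)]
      refine ENNReal.ofReal_le_ofReal (((fderiv ℝ w z).le_opNorm _).trans ?_)
      rw [← sub_le_iff_le_add', one_div_mul_eq_div, le_div_iff₀ hβ]
      nlinarith [sq_nonneg (β * ‖fderiv ℝ w z‖ - ‖Ψ z‖), sq_nonneg (β * ‖fderiv ℝ w z‖),
        sq_nonneg ‖Ψ z‖]
    · rw [h0 z hz', map_zero, enorm_zero]
      exact zero_le
  refine (lintegral_mono h3).trans ?_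
  rw [lintegral_add_left ((((measurable_fderiv ℝ w).enorm.pow_const 2).const_mul _).indicator hm),
    lintegral_const_mul' _ _ ENNReal.ofReal_ne_top]
  refine add_le_add ((setLIntegral_le_lintegral _ _).trans ?_) le_rfl
  rw [lintegral_indicator hm, lintegral_const_mul' _ _ ENNReal.ofReal_ne_top,
    ENNReal.ofReal_mul hβ.le]
  exact mul_le_mul_right hA _

/-- Weak convergence of the gradients against square integrable fields with bounded support. -/
theorem conv0_weak (hs : Seq c Ω ε wk u K) (h : Conv0 u K v L) {Ψ : ℂ → ℂ}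
    (hΨ : MemLp Ψ 2 volume) {R : ℝ} (hR : ∀ z, R < ‖z‖ → Ψ z = 0) :
    Tendsto (fun n => ∫ z in (K n)ᶜ, fderiv ℝ (u n) z (Ψ z)) atTop
      (𝓝 (∫ z in Lᶜ, fderiv ℝ v z (Ψ z))) := by
  have hr : 0 < max R 1 := lt_max_of_lt_right one_pos
  have h0 : ∀ z, z ∉ closedBall (0 : ℂ) (max R 1) → Ψ z = 0 := fun z hz =>
    hR z ((le_max_left _ _).trans_lt (by rwa [mem_closedBall_zero_iff, not_le] at hz))
  generalize max R 1 = r at hr h0
  have hB : MeasurableSet (closedBall (0 : ℂ) r) := measurableSet_closedBall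
  have h2 : (∫⁻ z, ‖Ψ z‖ₑ ^ 2) ≠ ∞ := by
    have := ((memLp_two_iff_integrable_sq_norm hΨ.1).1 hΨ).2
    simp only [HasFiniteIntegral, enorm_pow, enorm_norm] at this
    exact this.ne
  have h1 : (∫⁻ z, ‖Ψ z‖ₑ) ≠ ∞ := by
    have : IsFiniteMeasure (volume.restrict (closedBall (0 : ℂ) r)) :=
      isFiniteMeasure_restrict.2 measure_closedBall_lt_top.ne
    exact ((integrableOn_iff_integrable_of_support_subset fun z hz => not_not.1 (mt (h0 z) hz)).1
      ((hΨ.restrict _).integrable one_le_two)).2.ne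
  have hn : ∀ᶠ n in atTop, Dir (u n) (closedBall 0 r \ K n) ≤ ENNReal.ofReal (8 * r) :=
    (hs.dom r).mono fun n hn => le_trans le_self_add ((hs.am n).upper hr hn)
  simp only [← integral_indicator (hs.am _).closed.measurableSet.compl,
    ← integral_indicator h.closed.measurableSet.compl]
  refine tendsto_integral_of_L1 _ (weak_meas v hΨ.1 h.closed) (hn.mono fun n hn =>
    ⟨weak_meas _ hΨ.1 (hs.am n).closed, ?_⟩) (ENNReal.tendsto_nhds_zero.2 fun η₀ hη₀ => ?_)
  · have := weak_le (u n) (hs.am n).closed hB h0 one_pos hn univ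
    rw [Measure.restrict_univ] at this
    exact this.trans_lt (ENNReal.add_lt_top.2 ⟨ENNReal.ofReal_lt_top,
      ENNReal.mul_lt_top ENNReal.ofReal_lt_top h2.lt_top⟩)
  obtain ⟨η, -, hη, hη'⟩ := ENNReal.lt_iff_exists_real_btwn.1 hη₀
  rw [ENNReal.ofReal_pos] at hη
  obtain ⟨β, hβ, e1⟩ : ∃ β : ℝ, 0 < β ∧ β * (8 * r) = η / 5 :=
    ⟨η / (40 * r), by positivity, by field_simp; norm_num⟩
  obtain ⟨m, hm0, hm⟩ : ∃ m : ℝ, 0 < m ∧ (∫⁻ z, ‖Ψ z‖ₑ) ≤ ENNReal.ofReal m :=
    ⟨(∫⁻ z, ‖Ψ z‖ₑ).toReal + 1, by positivity, (ENNReal.ofReal_toReal h1).ge.trans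
      (ENNReal.ofReal_le_ofReal (le_add_of_nonneg_right one_pos.le))⟩
  obtain ⟨τ, hτ, e2⟩ : ∃ τ : ℝ, 0 < τ ∧ τ * m = η / 5 :=
    ⟨η / (5 * m), by positivity, by field_simp⟩
  have := isFiniteMeasure_withDensity h2
  obtain ⟨U, hLU, hU, hv⟩ := L.exists_isOpen_lt_of_lt
    (μ := volume.withDensity fun z => ‖Ψ z‖ₑ ^ 2) (ENNReal.ofReal (β * η / 5))
    (by rw [withDensity_absolutelyContinuous _ _ (lim_vol hs h)]
        exact ENNReal.ofReal_pos.2 (by positivity))
  rw [withDensity_apply _ hU.measurableSet] at hv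
  have hC := (isCompact_closedBall (0 : ℂ) r).diff hU
  have hCL : closedBall (0 : ℂ) r \ U ⊆ Lᶜ := fun z hz hL => hz.2 (hLU hL)
  have k0 : ∀ (w : ℂ → ℝ) {T : Set ℂ}, IsClosed T →
      Dir w (closedBall 0 r \ T) ≤ ENNReal.ofReal (8 * r) →
      (∫⁻ z in U, ‖Tᶜ.indicator (fun z => fderiv ℝ w z (Ψ z)) z‖ₑ) ≤
        ENNReal.ofReal (η / 5 + η / 5) := fun w T hT hw => by
    refine (weak_le w hT hB h0 hβ hw U).trans ?_
    rw [e1, ENNReal.ofReal_add (by positivity) (by positivity)]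
    refine add_le_add le_rfl ((mul_le_mul_right hv.le _).trans_eq ?_)
    rw [← ENNReal.ofReal_mul (by positivity)]
    congr 1
    field_simp
  filter_upwards [hn, h.up _ hC (subset_compl_iff_disjoint_right.1 hCL),
    Metric.tendstoUniformlyOn_iff.1 ((tendstoLocallyUniformlyOn_iff_forall_isCompact
      h.closed.isOpen_compl).1 h.grad _ hCL hC) τ hτ] with n k1 k2 k3
  have k4 : (∫⁻ z in Uᶜ, ‖(K n)ᶜ.indicator (fun z => fderiv ℝ (u n) z (Ψ z)) z -
      Lᶜ.indicator (fun z => fderiv ℝ v z (Ψ z)) z‖ₑ) ≤ ENNReal.ofReal (η / 5) := by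
    refine (setLIntegral_mono' (g := fun z => ENNReal.ofReal τ * ‖Ψ z‖ₑ)
      hU.measurableSet.compl fun z hz => ?_).trans ((setLIntegral_le_lintegral _ _).trans ?_)
    · by_cases hz' : z ∈ closedBall (0 : ℂ) r
      · rw [indicator_of_mem (show z ∈ (K n)ᶜ from disjoint_left.1 k2 ⟨hz', hz⟩),
          indicator_of_mem (hCL ⟨hz', hz⟩), ← sub_apply, ← ofReal_norm,
          ← ofReal_norm, ← ENNReal.ofReal_mul hτ.le]
        refine ENNReal.ofReal_le_ofReal ((ContinuousLinearMap.le_opNorm _ _).trans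
          (mul_le_mul_of_nonneg_right ?_ (norm_nonneg _)))
        rw [← dist_eq_norm, dist_comm]
        exact (k3 z ⟨hz', hz⟩).le
      · simp [indicator, h0 z hz']
    · rw [lintegral_const_mul' _ _ ENNReal.ofReal_ne_top, ← e2, ENNReal.ofReal_mul hτ.le]
      exact mul_le_mul_right hm _
  rw [← lintegral_add_compl _ hU.measurableSet]
  refine (add_le_add ((lintegral_mono fun z => enorm_sub_le).trans ?_) k4).trans
    ((?_ : ENNReal.ofReal (η / 5 + η / 5) + ENNReal.ofReal (η / 5 + η / 5) + _ = _).trans_le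
      hη'.le)
  · rw [lintegral_add_left' (weak_meas _ hΨ.1 (hs.am n).closed).restrict.enorm]
    exact add_le_add (k0 _ (hs.am n).closed k1) (k0 _ h.closed (lim_dir hs h 0 hr))
  · rw [← ENNReal.ofReal_add (by positivity) (by positivity),
      ← ENNReal.ofReal_add (by positivity) (by positivity)]
    congr 1
    ring

end Vale.Agent.P128
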